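import Vale.Agent.P148.R2.H771.JFinal
import Vale.Agent.P148.R2.H566.Final

/-!
# P148: conformal invariance of critical Voronoi percolation (Cardy's formula)
-/

open MeasureTheory Set Metric Topology Filter ProbabilityTheory
open scoped ENNReal NNReal

namespace Vale.Agent.Results.P148.AFull

open _root_.P148
open Vale.Agent.P148.R2.H771 (posSigma)

universe u

/-- (1) Coloured Poisson processes exist. (2) Every quad, or the quad with the marked points in the
reversed order (which has the same crossing event), has a uniformizer. (3) The crossing events are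
measurable up to null sets. (4) Cardy's formula: the limit of the crossing probabilities, annealed,
and in `L¹` for the conditional probability given the positions of the points. -/
theorem result :
    (∀ lam : ℝ≥0, ∃ (Ω : Type u) (_ : MeasurableSpace Ω) (P : Measure Ω)
      (_ : IsProbabilityMeasure P) (S : Ω → Set Pt), IsColouredPoisson P S lam) ∧
    (∀ Q : JQuad, (∀ R, Q.rev.Cross 0 2 R ↔ Q.Cross 0 2 R) ∧
      ((∃ φ x, Q.IsUniformizer φ x) ∨ ∃ φ x, Q.rev.IsUniformizer φ x)) ∧
    (∀ (Ω : Type u) [m : MeasurableSpace Ω] (P : Measure Ω) [IsProbabilityMeasure P]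
      (S : Ω → Set Pt) (lam : ℝ≥0), 0 < lam → IsColouredPoisson P S lam →
      posSigma S ≤ m ∧
        ∀ Q : JQuad, NullMeasurableSet {ω | Q.Cross 0 2 (blackRegion (S ω))} P) ∧
    ∀ (Q : JQuad) (φ : ℂ → ℂ) (x : ℝ), Q.IsUniformizer φ x → (0 < x ∧ x < 1) ∧
      ∀ (Ω : ℝ → Type u) [∀ ε, MeasurableSpace (Ω ε)] (P : ∀ ε, Measure (Ω ε))
        [∀ ε, IsProbabilityMeasure (P ε)] (S : ∀ ε, Ω ε → Set Pt),
        (∀ ε > 0, IsColouredPoisson (P ε) (S ε) (Real.toNNReal (ε ^ (-2 : ℤ)))) →
        Tendsto (fun ε => (P ε {ω | Q.Cross 0 2 (blackRegion (S ε ω))}).toReal) (𝓝[>] 0)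
          (𝓝 (cardy x)) ∧
        Tendsto (fun ε => ∫ ω, |((P ε)[{ω | Q.Cross 0 2 (blackRegion (S ε ω))}.indicator
          (fun _ => (1 : ℝ)) | posSigma (S ε)]) ω - cardy x| ∂(P ε)) (𝓝[>] 0) (𝓝 0) :=
  Vale.Agent.P148.R2.H771.finalJ_of
    (Vale.Agent.P148.R2.F.final_of Vale.Agent.P148.R2.H566.meu)

end Vale.Agent.Results.P148.AFull
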